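import Vale.Agent.P232.RigidFinal

/-!
P232: the isoperimetric profile of the cubic three-torus and all minimisers.
-/

open MeasureTheory Set

namespace Vale.Agent.Results.P232.Minimisers

/-- `I(V) = min {(36π)^(1/3) v^(2/3), 2√(πv), 2}`, `v = min V (1-V)`; the infimum is attained;
the minimisers are exactly the balls, tubes and slabs of least perimeter and their complements. -/
theorem result : ∀ V ∈ Ioo (0 : ℝ) 1,
    Vale.P232.profile V = ENNReal.ofReal
      (min (min ((36 * Real.pi) ^ (1 / 3 : ℝ) * (min V (1 - V)) ^ (2 / 3 : ℝ))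
        (2 * Real.sqrt (Real.pi * min V (1 - V)))) 2) ∧
    (∃ E : Set Vale.P232.V3, MeasurableSet E ∧ Vale.P232.IsPeriodic E ∧
      Vale.P232.tvol E = V ∧ Vale.P232.perimeter E = Vale.P232.profile V) ∧
    ∀ E : Set Vale.P232.V3, MeasurableSet E → Vale.P232.IsPeriodic E → Vale.P232.tvol E = V →
      (Vale.P232.perimeter E = Vale.P232.profile V ↔
        ∃ F : Set Vale.P232.V3, ((F = E ∧ V ≤ 1 / 2) ∨ (F = Eᶜ ∧ 1 / 2 ≤ V)) ∧
          ((Vale.P232.IsBallSet F ∧ (36 * Real.pi) ^ (1 / 3 : ℝ) * (min V (1 - V)) ^ (2 / 3 : ℝ) =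
              min (min ((36 * Real.pi) ^ (1 / 3 : ℝ) * (min V (1 - V)) ^ (2 / 3 : ℝ))
                (2 * Real.sqrt (Real.pi * min V (1 - V)))) 2) ∨
            (Vale.P232.IsTubeSet F ∧ 2 * Real.sqrt (Real.pi * min V (1 - V)) =
              min (min ((36 * Real.pi) ^ (1 / 3 : ℝ) * (min V (1 - V)) ^ (2 / 3 : ℝ))
                (2 * Real.sqrt (Real.pi * min V (1 - V)))) 2) ∨
            (Vale.P232.IsSlabSet F ∧ 2 =
              min (min ((36 * Real.pi) ^ (1 / 3 : ℝ) * (min V (1 - V)) ^ (2 / 3 : ℝ))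
                (2 * Real.sqrt (Real.pi * min V (1 - V)))) 2))) :=
  fun V hV => ⟨Vale.P232.profile_eq_J V hV, Vale.P232.exists_minimiser hV,
    fun _ hE hp hv => Vale.P232.minimiser_iff_proved hV hE hp hv⟩

end Vale.Agent.Results.P232.Minimisers
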